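import Vale.Agent.P011.E6H.Hyp
import Vale.Agent.P011.E6.HDefs
import Vale.Agent.P011.E6I.HDefs
import Vale.Agent.P011.E6O.HDefs

/-!
The groups of the final statement and the groups of the proofs agree.
-/

open NumberField

namespace Vale.Agent.P011.E6H

open Vale.Agent.P011.D4 Vale.Agent.P011.E6

variable {k M : Type} [Field k] [Field M] [Algebra k M] {a b c : kˣ}

theorem gp_eq (σ : M ≃ₐ[k] M) (a b c : kˣ) (g : Fin 3 → kˣ) :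
    GHer σ (upG M g) a b c = GP σ a b c g := by
  ext φ
  constructor
  · rintro ⟨⟨h1, h2, h3⟩, h4⟩
    exact ⟨h1, h2, h3, h4⟩
  · rintro ⟨h1, h2, h3, h4⟩
    exact ⟨⟨h1, h2, h3⟩, h4⟩

theorem gpi_eq (ρ : M ≃ₐ[k] M) (lam : kˣ) (a b c : kˣ) :
    GPh ρ (up M lam) a b c = E6I.GPI ρ lam a b c := by
  ext φ
  constructor
  · rintro ⟨⟨h1, h2, h3⟩, h4⟩
    exact ⟨h1, h2, h3, h4⟩
  · rintro ⟨h1, h2, h3, h4⟩
    exact ⟨⟨h1, h2, h3⟩, h4⟩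

theorem gpo_eq (ρ σ : M ≃ₐ[k] M) (lam : Mˣ) (g : Fin 3 → Mˣ) (a b c : kˣ) :
    GHer σ g a b c ⊓ GPh ρ lam a b c = E6O.GPO ρ σ lam g a b c := by
  ext φ
  constructor
  · rintro ⟨⟨⟨h1, h2, h3⟩, h4⟩, h5⟩
    exact ⟨h1, h2, h3, h5.2, h4⟩
  · rintro ⟨h1, h2, h3, h4, h5⟩
    exact ⟨⟨⟨h1, h2, h3⟩, h5⟩, ⟨h1, h2, h3⟩, h4⟩

/-- The hypotheses of the final statement imply those of the proofs. -/
theorem hyp_of {ρ σ : M ≃ₐ[k] M} {lam : Mˣ} {g : Fin 3 → Mˣ} [NeZero (2 : M)]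
    (h : IsSextic ρ σ a) (hg : IsWeight ρ σ lam g) (hdiv : Oct.Division a b c)
    (hre : ∀ τ : k →+* ℝ, τ a < 0 → τ b < 0 ∧ τ c < 0) :
    ∃ al s : M, E6O.Hyp ρ σ lam g al s a b c := by
  obtain ⟨al, h1, h2, h3⟩ := h.sq
  obtain ⟨s, s1, s2, s3, s4⟩ := hg.rel
  have hal : al ≠ 0 := by
    rintro rfl
    have e : algebraMap k M a = 0 := by rw [← h1]; ring
    exact a.ne_zero ((map_eq_zero _).mp e)
  refine ⟨al, s, ⟨h.h6, ?_, h.ρ3, ?_, h.σ2, h.comm, h1, h2, h3, hg.ρlam, hg.hlam, hg.σg, s1, s2,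
    s3, s4, hdiv, hre, hg.pos⟩⟩
  · obtain ⟨x, hx⟩ := h.hρ
    rintro rfl
    exact hx rfl
  · rintro rfl
    have e : al = -al := h3
    have e2 : (2 : M) * al = 0 := by linear_combination e
    rcases mul_eq_zero.mp e2 with e3 | e3
    · exact two_ne_zero e3
    · exact hal e3

end Vale.Agent.P011.E6H
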