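import Vale.Agent.P011.E6.Defs

/-!
The groups of type `E₆` attached to the hermitian matrices of degree three over octonions, as
groups of permutations.
-/

namespace Vale.Agent.P011.E6H

open Vale.Agent.P011.D4 Vale.Agent.P011.E6

/-- The property holds for the identity, for compositions and for inverse maps. -/
structure IsGrp {V : Type} (P : (V → V) → Prop) : Prop where
  /-- the identity -/
  one : P id
  /-- compositions -/
  comp : ∀ f g, P f → P g → P (f ∘ g)
  /-- inverse maps -/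
  inv : ∀ f g, (∀ x, f (g x) = x) → (∀ x, g (f x) = x) → P f → P g

/-- The group of the permutations with the property `P`. -/
def permGroup {V : Type} (P : (V → V) → Prop) (h : IsGrp P) : Subgroup (Equiv.Perm V) where
  carrier := {φ | P φ}
  mul_mem' := fun {f g} hf hg => h.comp f g hf hg
  one_mem' := h.one
  inv_mem' := fun {f} hf => h.inv f (f⁻¹ : Equiv.Perm V) (fun x => f.apply_symm_apply x)
    (fun x => f.symm_apply_apply x) hf

/-- Every normal subgroup of the group `G` is central or everything. -/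
def OnlyCentral {V : Type} (G : Subgroup (Equiv.Perm V)) : Prop :=
  ∀ N : Subgroup G, N.Normal → N ≤ Subgroup.center G ∨ N = ⊤

/-- The group `G` has no proper subgroup of finite index. -/
def NoIndex {V : Type} (G : Subgroup (Equiv.Perm V)) : Prop :=
  ∀ N : Subgroup G, N.index ≠ 0 → N = ⊤

/-- The map `φ` is linear and preserves the cubic norm. -/
def IsNormMap {F : Type} [Field F] {a b c : Fˣ} (φ : Alb a b c → Alb a b c) : Prop :=
  (∀ x y, φ (x + y) = φ x + φ y) ∧ (∀ (t : F) x, φ (t • x) = t • φ x) ∧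
    ∀ x, Alb.cub (φ x) = Alb.cub x

variable {k M : Type} [Field k] [Field M] [Algebra k M]

/-- The hermitian form attached to the weights. -/
def her (σ : M ≃ₐ[k] M) (g : Fin 3 → Mˣ) {a b c : kˣ} (x y : AlbL M a b c) : M :=
  Alb.tf (Alb.wt g x) (amap σ y)

/-- The semilinear map `X ↦ λ u ρ(X) uᵗ`, where `u` is the matrix with `u e₁ = e₂`, `u e₂ = e₃`,
`u e₃ = λ⁻¹ e₁`. -/
def ph (ρ : M ≃ₐ[k] M) (lam : Mˣ) {a b c : kˣ} (x : AlbL M a b c) : AlbL M a b c :=
  ⟨(lam⁻¹ : Mˣ) * ρ x.d3, (lam : M) * ρ x.d1, (lam : M) * ρ x.d2,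
    (lam : M) • omap ρ x.x3, omap ρ x.x1, omap ρ x.x2⟩

/-- The map `φ` is linear and preserves the cubic norm and the hermitian form. -/
def IsHer (σ : M ≃ₐ[k] M) (g : Fin 3 → Mˣ) {a b c : kˣ} (φ : AlbL M a b c → AlbL M a b c) :
    Prop :=
  IsNormMap φ ∧ ∀ x y, her σ g (φ x) (φ y) = her σ g x y

/-- The map `φ` is linear, preserves the cubic norm and commutes with `ph`. -/
def IsPh (ρ : M ≃ₐ[k] M) (lam : Mˣ) {a b c : kˣ} (φ : AlbL M a b c → AlbL M a b c) : Prop :=
  IsNormMap φ ∧ ∀ x, φ (ph ρ lam x) = ph ρ lam (φ x)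

theorem isGrp_normMap {F : Type} [Field F] {a b c : Fˣ} :
    IsGrp (IsNormMap (a := a) (b := b) (c := c)) := by
  refine ⟨⟨fun _ _ => rfl, fun _ _ => rfl, fun _ => rfl⟩, ?_, ?_⟩
  · rintro f g ⟨f1, f2, f3⟩ ⟨g1, g2, g3⟩
    refine ⟨fun x y => ?_, fun t x => ?_, fun x => ?_⟩
    · rw [Function.comp_apply, g1, f1]; rfl
    · rw [Function.comp_apply, g2, f2]; rfl
    · rw [Function.comp_apply, f3, g3]
  · rintro f g e e' ⟨f1, f2, f3⟩
    refine ⟨fun x y => ?_, fun t x => ?_, fun x => ?_⟩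
    · rw [← e' (g x + g y), f1, e, e]
    · rw [← e' (t • g x), f2, e]
    · rw [← f3, e]

theorem isGrp_her (σ : M ≃ₐ[k] M) (g : Fin 3 → Mˣ) (a b c : kˣ) :
    IsGrp (IsHer σ g (a := a) (b := b) (c := c)) := by
  refine ⟨⟨isGrp_normMap.one, fun _ _ => rfl⟩, ?_, ?_⟩
  · rintro f h ⟨f1, f2⟩ ⟨h1, h2⟩
    exact ⟨isGrp_normMap.comp f h f1 h1, fun x y => by
      rw [Function.comp_apply, Function.comp_apply, f2, h2]⟩
  · rintro f h e e' ⟨f1, f2⟩
    exact ⟨isGrp_normMap.inv f h e e' f1, fun x y => by rw [← f2, e, e]⟩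

theorem isGrp_ph (ρ : M ≃ₐ[k] M) (lam : Mˣ) (a b c : kˣ) :
    IsGrp (IsPh ρ lam (a := a) (b := b) (c := c)) := by
  refine ⟨⟨isGrp_normMap.one, fun _ => rfl⟩, ?_, ?_⟩
  · rintro f h ⟨f1, f2⟩ ⟨h1, h2⟩
    exact ⟨isGrp_normMap.comp f h f1 h1, fun x => by
      rw [Function.comp_apply, h2, f2]; rfl⟩
  · rintro f h e e' ⟨f1, f2⟩
    exact ⟨isGrp_normMap.inv f h e e' f1, fun x => by rw [← e' (ph ρ lam (h x)), f2, e]⟩

/-- The group of the linear bijections that preserve the cubic norm and the hermitian form. -/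
def GHer (σ : M ≃ₐ[k] M) (g : Fin 3 → Mˣ) (a b c : kˣ) : Subgroup (Equiv.Perm (AlbL M a b c)) :=
  permGroup (IsHer σ g) (isGrp_her σ g a b c)

/-- The group of the linear bijections that preserve the cubic norm and commute with `ph`. -/
def GPh (ρ : M ≃ₐ[k] M) (lam : Mˣ) (a b c : kˣ) : Subgroup (Equiv.Perm (AlbL M a b c)) :=
  permGroup (IsPh ρ lam) (isGrp_ph ρ lam a b c)

end Vale.Agent.P011.E6H
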