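import Vale.Agent.P011.E6H.Defs

/-!
The hypotheses on the outer groups of type `E₆` with nontrivial Tits class.
-/

open NumberField

namespace Vale.Agent.P011.E6H

open Vale.Agent.P011.D4 Vale.Agent.P011.E6
open scoped ComplexConjugate

/-- The extension `E/k` of degree six is generated by the commuting automorphisms `ρ` of order three
and `σ` of order two, and the fixed field of `ρ` is generated by a square root of `a`. -/
structure IsSextic {k E : Type} [Field k] [Field E] [Algebra k E] (ρ σ : E ≃ₐ[k] E) (a : kˣ) :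
    Prop where
  /-- the degree -/
  h6 : Module.finrank k E = 6
  /-- `ρ` is not trivial -/
  hρ : ∃ x, ρ x ≠ x
  /-- `ρ` has order three -/
  ρ3 : ∀ x, ρ (ρ (ρ x)) = x
  /-- `σ` has order two -/
  σ2 : ∀ x, σ (σ x) = x
  /-- `ρ` and `σ` commute -/
  comm : ∀ x, ρ (σ x) = σ (ρ x)
  /-- the square root of `a` -/
  sq : ∃ x : E, x ^ 2 = algebraMap k E a ∧ ρ x = x ∧ σ x = -x

/-- The cyclic algebra `D = (E/K, ρ, λ)` is not split, `X ↦ g⁻¹ σ(X)ᵗ g` is an involution of `D`,
and the form `g` is definite at the real places of `k` which do not split in `K`. -/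
structure IsWeight {k E : Type} [Field k] [Field E] [Algebra k E] (ρ σ : E ≃ₐ[k] E) (lam : Eˣ)
    (g : Fin 3 → Eˣ) : Prop where
  /-- `λ` belongs to `K` -/
  ρlam : ρ lam = lam
  /-- the cyclic algebra is not split -/
  hlam : ∀ x, x * ρ x * ρ (ρ x) ≠ lam
  /-- the weights are fixed by `σ` -/
  σg : ∀ i, σ (g i) = g i
  /-- the relations between the weights -/
  rel : ∃ s : E, σ s = s ∧ (g 1 : E) = s * ρ (g 0) ∧ (g 2 : E) = s * ρ (g 1) ∧
    (g 0 : E) = lam * σ lam * s * ρ (g 2)
  /-- definiteness at the real places which do not split -/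
  pos : ∀ w : E →+* ℂ, (∀ x, w (σ x) = conj (w x)) →
    0 < (w (g 0 * g 1)).re ∧ 0 < (w (g 1 * g 2)).re

end Vale.Agent.P011.E6H
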