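import Vale.Agent.P011.E6H.XBr

/-!
The real places at which the outer group of type `E₆` is not compact.
-/

open NumberField

namespace Vale.Agent.P011.E6H

open Vale.Agent.P011.D4 Vale.Agent.P011.E6
open scoped ComplexConjugate

variable {k E : Type} [Field k] [Field E] [Algebra k E] {ρ σ : E ≃ₐ[k] E} {lam : Eˣ}
  {g : Fin 3 → Eˣ} {a b c : kˣ}

/-- The embedding `w` lies over a real place of `k` which does not split in `K` and at which the
octonion algebra `(a, b, c)` or the form `g` is indefinite. -/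
def Bad (σ : E ≃ₐ[k] E) (b c : kˣ) (g : Fin 3 → Eˣ) (w : E →+* ℂ) : Prop :=
  (∀ x, w (σ x) = conj (w x)) ∧
    ¬ ((w (algebraMap k E b)).re < 0 ∧ (w (algebraMap k E c)).re < 0 ∧
      0 < (w (g 0 * g 1)).re ∧ 0 < (w (g 1 * g 2)).re)

theorem bad_iff {w : E →+* ℂ} : Bad σ b c g w ↔ Inert σ w ∧ ¬ (DefC b c w ∧ DefG g w) := by
  unfold Bad Inert DefC DefG
  tauto

/-- The statement on openness for the group of the final statement. -/
theorem openAt_bad
    (h : ∀ N : Subgroup (E6O.GO ρ σ lam g a b c), N.index ≠ 0 → ∃ ε : ℝ, 0 < ε ∧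
      ∀ x : E6O.GO ρ σ lam g a b c,
        (∀ w, Inert σ w ∧ ¬ (DefC b c w ∧ DefG g w) →
          ∀ y, nm w (x.1 y - y) ≤ ε * nm w y) → x ∈ N) :
    OpenAt (Bad σ b c g) (GHer σ g a b c ⊓ GPh ρ lam a b c) := by
  refine openAt_of fun N hN => ?_
  obtain ⟨ε, h0, h1⟩ := h N hN
  exact ⟨ε, h0, fun x hx => h1 x fun w hw => hx w (bad_iff.mpr hw)⟩

end Vale.Agent.P011.E6H
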