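import Vale.Agent.P011.E6H.XDefs
import Vale.Agent.P011.E6H.Br
import Vale.Agent.P011.E6O.HFinOf

/-!
Openness of the subgroups of finite index: from linear maps to permutations.
-/

open NumberField

namespace Vale.Agent.P011.E6H

open Vale.Agent.P011.D4 Vale.Agent.P011.E6 Vale.Agent.P011.E6O

variable {k E : Type} [Field k] [Field E] [Algebra k E] {ρ σ : E ≃ₐ[k] E} {lam : Eˣ}
  {g : Fin 3 → Eˣ} {a b c : kˣ}

/-- The statement on openness for the permutations from the statement for the linear maps. -/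
theorem openAt_gpo {S : (E →+* ℂ) → Prop}
    (h : ∀ N : Subgroup (GO ρ σ lam g a b c), N.index ≠ 0 → ∃ ε : ℝ, 0 < ε ∧
      ∀ x : GO ρ σ lam g a b c,
        (∀ w, S w → ∀ y, nm w (x.1 y - y) ≤ ε * nm w y) → x ∈ N) :
    OpenAt S (GPO ρ σ lam g a b c) := by
  intro N hN
  obtain ⟨ε, h0, h1⟩ := h (N.comap (toGPO (ρ := ρ) (σ := σ) (lam := lam) (g := g) (a := a)
    (b := b) (c := c))) (by
      rw [Subgroup.index_comap_of_surjective _ toGPO_surjective]
      exact hN)
  refine ⟨ε, h0, fun x hx => ?_⟩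
  obtain ⟨y, rfl⟩ := toGPO_surjective x
  exact h1 y hx

/-- The same for the group of the final statement. -/
theorem openAt_of {S : (E →+* ℂ) → Prop}
    (h : ∀ N : Subgroup (GO ρ σ lam g a b c), N.index ≠ 0 → ∃ ε : ℝ, 0 < ε ∧
      ∀ x : GO ρ σ lam g a b c,
        (∀ w, S w → ∀ y, nm w (x.1 y - y) ≤ ε * nm w y) → x ∈ N) :
    OpenAt S (GHer σ g a b c ⊓ GPh ρ lam a b c) := by
  rw [gpo_eq]
  exact openAt_gpo h

end Vale.Agent.P011.E6H
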