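import Vale.Agent.P011.E6H.Defs

/-!
Subgroups of finite index which are open at some complex embeddings.
-/

open NumberField

namespace Vale.Agent.P011.E6H

open Vale.Agent.P011.MPQ Vale.Agent.P011.D4 Vale.Agent.P011.E6
open scoped ComplexConjugate

/-- The sum of the absolute values of the coordinates. -/
noncomputable def qnm {F : Type} [Field F] {a b : Fˣ} (w : F →+* ℂ) (x : Qt a b) : ℝ :=
  ‖w x.re‖ + ‖w x.imI‖ + ‖w x.imJ‖ + ‖w x.imK‖

/-- The sum of the absolute values of the coordinates. -/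
noncomputable def nm {F : Type} [Field F] {a b c : Fˣ} (w : F →+* ℂ) (x : Alb a b c) : ℝ :=
  ‖w x.d1‖ + ‖w x.d2‖ + ‖w x.d3‖ + (qnm w x.x1.fst + qnm w x.x1.snd) +
    (qnm w x.x2.fst + qnm w x.x2.snd) + (qnm w x.x3.fst + qnm w x.x3.snd)

/-- Every subgroup of finite index of `G` contains the elements of `G` which are close to the
identity at the embeddings `w` with the property `S`. -/
def OpenAt {F : Type} [Field F] {a b c : Fˣ} (S : (F →+* ℂ) → Prop)
    (G : Subgroup (Equiv.Perm (Alb a b c))) : Prop :=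
  ∀ N : Subgroup G, N.index ≠ 0 → ∃ ε : ℝ, 0 < ε ∧
    ∀ h : G, (∀ w, S w → ∀ x, nm w (h.1 x - x) ≤ ε * nm w x) → h ∈ N

/-- The cyclic algebra `D = (E/K, ρ, λ)` is not split, and `X ↦ g⁻¹ σ(X)ᵗ g` is an involution
of `D`. -/
structure IsForm {k E : Type} [Field k] [Field E] [Algebra k E] (ρ σ : E ≃ₐ[k] E) (lam : Eˣ)
    (g : Fin 3 → Eˣ) : Prop where
  /-- `λ` belongs to `K` -/
  ρlam : ρ lam = lam
  /-- the cyclic algebra is not split -/
  hlam : ∀ x, x * ρ x * ρ (ρ x) ≠ lam
  /-- the weights are fixed by `σ` -/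
  σg : ∀ i, σ (g i) = g i
  /-- the relations between the weights -/
  rel : ∃ s : E, σ s = s ∧ (g 1 : E) = s * ρ (g 0) ∧ (g 2 : E) = s * ρ (g 1) ∧
    (g 0 : E) = lam * σ lam * s * ρ (g 2)

/-- The embedding `w` lies over a real place of `k` which does not split in `K`. -/
def Inert {k E : Type} [Field k] [Field E] [Algebra k E] (σ : E ≃ₐ[k] E) (w : E →+* ℂ) : Prop :=
  ∀ x, w (σ x) = conj (w x)

/-- The octonion algebra `(a, b, c)` is definite at the embedding `w`, where `a` is negative. -/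
def DefC {k E : Type} [Field k] [Field E] [Algebra k E] (b c : kˣ) (w : E →+* ℂ) : Prop :=
  (w (algebraMap k E b)).re < 0 ∧ (w (algebraMap k E c)).re < 0

/-- The weights are definite at the embedding `w`. -/
def DefG {E : Type} [Field E] (g : Fin 3 → Eˣ) (w : E →+* ℂ) : Prop :=
  0 < (w (g 0 * g 1)).re ∧ 0 < (w (g 1 * g 2)).re

theorem qnm_nonneg {F : Type} [Field F] {a b : Fˣ} (w : F →+* ℂ) (x : Qt a b) :
    0 ≤ qnm w x := by
  unfold qnm
  positivity

theorem nm_nonneg {F : Type} [Field F] {a b c : Fˣ} (w : F →+* ℂ) (x : Alb a b c) :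
    0 ≤ nm w x := by
  have h1 := qnm_nonneg w x.x1.fst
  have h2 := qnm_nonneg w x.x1.snd
  have h3 := qnm_nonneg w x.x2.fst
  have h4 := qnm_nonneg w x.x2.snd
  have h5 := qnm_nonneg w x.x3.fst
  have h6 := qnm_nonneg w x.x3.snd
  unfold nm
  positivity

/-- If `S` is empty there is no proper subgroup of finite index. -/
theorem OpenAt.noIndex {F : Type} [Field F] {a b c : Fˣ} {S : (F →+* ℂ) → Prop}
    {G : Subgroup (Equiv.Perm (Alb a b c))} (h : OpenAt S G) (hS : ∀ w, ¬ S w) : NoIndex G := by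
  intro N hN
  obtain ⟨ε, -, h1⟩ := h N hN
  rw [eq_top_iff]
  intro x _
  exact h1 x fun w hw => absurd hw (hS w)

end Vale.Agent.P011.E6H
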